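import Vale.Agent.P272.K.QN.H705.Final

/-!
# P272: generically immersive maps to manifolds with a Hermitian metric of nonpositive holomorphic
sectional curvature

`X` is a compact connected complex manifold of dimension `n ≥ 1` with a Kähler metric, `Y` a complex
manifold of any dimension with a Hermitian metric `h` (no Kähler, pluriclosed or other condition) of
nonpositive holomorphic sectional curvature, and `F : X → Y` a holomorphic map such that at some
point `x` the curvature is negative in all directions `dF_x(ξ)`, `ξ ≠ 0` (so `F` is immersive at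
`x`, e.g. `F` is a generically finite map and the curvature of `h` is negative). If `K_X` is nef,
then `c₁(K_X)^n > 0`.
-/

open scoped Manifold ContDiff

namespace Vale.Agent.Results.P272.GenericImmersionBig

open Vale.Agent.P272.K

section
variable {n m : ℕ} {X Y : Type} [TopologicalSpace X] [TopologicalSpace Y]

/-- the matrix of the differential of `F` at `x` in the charts `e` of `X` and `e'` of `Y` -/
noncomputable def diffM (F : X → Y) (e : Chart n X) (e' : Chart m Y) (x : X) :
    Matrix (Fin m) (Fin n) ℂ :=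
  Matrix.of fun p i => dz i (fun z => e' (F (e.symm z)) p) (e x)

/-- the holomorphic sectional curvature of `h` is negative in all directions `dF_x(ξ)`, `ξ ≠ 0`;
in particular `dF_x` is injective -/
def NegAlongAt [ChartedSpace (Cm n) X] [ChartedSpace (Cm m) Y] (F : X → Y)
    (h : Chart m Y → Cm m → Matrix (Fin m) (Fin m) ℂ) (x : X) : Prop :=
  ∀ (e : Chart n X) (e' : Chart m Y), At e x → At e' (F x) → ∀ ξ : Cm n, ξ ≠ 0 →
    (∑ i, ∑ j, ∑ k, ∑ l, curv (h e') (e' (F x)) i j k l *
      ((diffM F e e' x).mulVec ξ i * (starRingEnd ℂ) ((diffM F e e' x).mulVec ξ j) *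
        (diffM F e e' x).mulVec ξ k * (starRingEnd ℂ) ((diffM F e e' x).mulVec ξ l))).re < 0

end

theorem result (n m : ℕ) (hn : 1 ≤ n) (X Y : Type) [TopologicalSpace X] [T2Space X]
    [CompactSpace X] [ConnectedSpace X] [ChartedSpace (Cm n) X] [IsManifold 𝓘(ℂ, Cm n) ω X]
    [TopologicalSpace Y] [ChartedSpace (Cm m) Y] [IsManifold 𝓘(ℂ, Cm m) ω Y]
    (w : Chart n X → Cm n → Matrix (Fin n) (Fin n) ℂ) (hw : IsKahler w)
    (h : Chart m Y → Cm m → Matrix (Fin m) (Fin m) ℂ) (hh : IsHermitian h) (hneg : NonposHSC h)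
    (F : X → Y) (hF : ContMDiff 𝓘(ℂ, Cm n) 𝓘(ℂ, Cm m) ω F)
    (hx : ∃ x, NegAlongAt (n := n) F h x) (hnef : NefCanonical w 0)
    (φ : Chart n X → Cm n → ℝ) (hφ : IsCanonicalMetric φ) :
    ∃ I : ℝ, 0 < I ∧ IsIntegral (fun e z => (cHess (φ e) z).det.re) I := by
  have hq : QN.QuasiNegAlong (n := n) F h := by
    refine ⟨fun e e' x he he' ξ => ?_, ?_⟩
    · have h1 := hneg e' (F x) he' ((QN.jm (QN.loc F e e') (e x)).mulVec ξ)
      have h2 : QN.loc F e e' (e x) = e' (F x) := QN.loc_apply he
      unfold QN.qF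
      rw [h2]
      exact h1
    · obtain ⟨x, hx⟩ := hx
      refine ⟨x, fun e e' he he' ξ hξ => ?_⟩
      have h1 := hx e e' he he' ξ hξ
      have h2 : QN.loc F e e' (e x) = e' (F x) := QN.loc_apply he
      unfold QN.qF
      rw [h2]
      exact h1
  have h3 := QN.big_of_pull hn hw hF hh hq le_rfl hnef hφ
  simpa using h3

end Vale.Agent.Results.P272.GenericImmersionBig
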