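import Vale.Agent.Results.P272.HermitianNonposHSC
import Vale.Agent.Results.P272.GenericImmersionBig
import Vale.Agent.Results.P272.L2Covering
import Vale.Agent.P223.H959.Zero
import Vale.Agent.P223.H959.All
import Vale.Agent.P223.H959.L2
import Vale.Agent.P223.H209.Leb

/-!
# P272: criteria for the ampleness (positivity) and bigness of the canonical bundle

`X` is a compact connected complex manifold of dimension `n` with a Kähler metric.

1. If `K_X` is nef then the simplicial volume of `X` (a homotopy invariant) is at most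
   `C_n c₁(K_X)^n`. So if moreover the simplicial volume is not zero, then `c₁(K_X)^n > 0`.
2. The case of a Hermitian metric of nonpositive holomorphic sectional curvature on `X`.
3. The case of a generically immersive holomorphic map from `X` to a manifold with a Hermitian metric
   of nonpositive holomorphic sectional curvature.
4. The case of a covering with square integrable pluricanonical forms.
-/

open scoped Manifold ContDiff ComplexOrder

namespace Vale.Agent.Results.P272.AmpleCriteria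

open Vale.Agent.P272 Vale.Agent.P272.K Vale.Agent.Results.P272
open Vale.Agent.P223.K (sv)
open Vale.Agent.P223.H959 (realAtlas)

universe u v

theorem result :
    (∀ n : ℕ, 2 ≤ n → ∀ (X : Type) [TopologicalSpace X] [T2Space X] [CompactSpace X]
      [ConnectedSpace X] [ChartedSpace (Cm n) X] [IsManifold 𝓘(ℂ, Cm n) ω X]
      (w : Chart n X → Cm n → Matrix (Fin n) (Fin n) ℂ), IsKahler w → NefCanonical w 0 →
      ∀ φ : Chart n X → Cm n → ℝ, IsCanonicalMetric φ → ∃ I : ℝ, 0 ≤ I ∧
        IsIntegral (fun e z => (cHess (φ e) z).det.re) I ∧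
        sv (realAtlas n X) ≤ ENNReal.ofReal ((2 * n - 2 + √(2 * n)) ^ (2 * n) * 2 ^ n * I) ∧
        (sv (realAtlas n X) ≠ 0 → 0 < I)) ∧
    (∀ n : ℕ, 1 ≤ n → ∀ (X : Type) [TopologicalSpace X] [T2Space X] [CompactSpace X]
      [ConnectedSpace X] [ChartedSpace (Cm n) X] [IsManifold 𝓘(ℂ, Cm n) ω X]
      (w h : Chart n X → Cm n → Matrix (Fin n) (Fin n) ℂ), IsKahler w → IsHermitian h →
      NonposHSC h →
      NefCanonical w 0 ∧
      (HermitianNonposHSC.PositiveCanonical n X ↔ HermitianNonposHSC.TopPositive n X) ∧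
      (QuasiNegHSC h → HermitianNonposHSC.PositiveCanonical n X) ∧
      ((∀ f : ℂ → X, ¬ IsFlatLine h f) → HermitianNonposHSC.PositiveCanonical n X) ∧
      (BrodyHyperbolic n X → HermitianNonposHSC.PositiveCanonical n X) ∧
      (2 ≤ n → sv (realAtlas n X) ≠ 0 → HermitianNonposHSC.PositiveCanonical n X)) ∧
    (∀ n m : ℕ, 1 ≤ n → ∀ (X Y : Type) [TopologicalSpace X] [T2Space X] [CompactSpace X]
      [ConnectedSpace X] [ChartedSpace (Cm n) X] [IsManifold 𝓘(ℂ, Cm n) ω X]
      [TopologicalSpace Y] [ChartedSpace (Cm m) Y] [IsManifold 𝓘(ℂ, Cm m) ω Y]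
      (w : Chart n X → Cm n → Matrix (Fin n) (Fin n) ℂ), IsKahler w →
      ∀ h : Chart m Y → Cm m → Matrix (Fin m) (Fin m) ℂ, IsHermitian h → NonposHSC h →
      ∀ F : X → Y, ContMDiff 𝓘(ℂ, Cm n) 𝓘(ℂ, Cm m) ω F →
      (∃ x, GenericImmersionBig.NegAlongAt (n := n) F h x) → NefCanonical w 0 →
      ∀ φ : Chart n X → Cm n → ℝ, IsCanonicalMetric φ →
      ∃ I : ℝ, 0 < I ∧ IsIntegral (fun e z => (cHess (φ e) z).det.re) I) ∧
    (∀ n m : ℕ, 1 ≤ m → ∀ (X : Type u) (D : Type v) [TopologicalSpace X] [CompactSpace X]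
      [ChartedSpace (Stmt.Cn n) X] [Stmt.IsCplx n X] [TopologicalSpace D]
      [ChartedSpace (Stmt.Cn n) D] [Stmt.IsCplx n D] (p : D → X), Stmt.HolCovering n p →
      ∀ ρ : D → ℝ, Stmt.StrictlyPSH n ρ →
      (∀ x : X, ∃ z : D, p z = x ∧ ∃ s : Stmt.PluriForm n m D, Stmt.SquareIntegrable s p ∧
        s.val z ≠ 0) → Stmt.CanonicalPositive n X) := by
  have key := fun (n : ℕ) (hn : 2 ≤ n) (X : Type) [TopologicalSpace X] [T2Space X]
    [CompactSpace X] [ConnectedSpace X] [ChartedSpace (Cm n) X] [IsManifold 𝓘(ℂ, Cm n) ω X]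
    (w : Chart n X → Cm n → Matrix (Fin n) (Fin n) ℂ) (hw : IsKahler w)
    (hnef : NefCanonical w 0) => Vale.Agent.P223.H959.canonical_bound Vale.Agent.P223.H959.blocks
      (Vale.Agent.P223.H959.specTot_of Vale.Agent.P223.H209.specLeb) hn X w hw hnef
  refine ⟨key, ?_, ?_, ?_⟩
  · intro n hn X _ _ _ _ _ _ w h hw hh hneg
    obtain ⟨h1, h2, h3, h4, h5⟩ := HermitianNonposHSC.result n hn X w h hw hh hneg
    refine ⟨h1, h2, h3, h4, h5, fun hn2 hsv => h2.2 ?_⟩
    obtain ⟨φ, hφ, -⟩ := h1 1 one_pos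
    obtain ⟨I, -, hI, -, hpos⟩ := key n hn2 X w hw h1 φ hφ
    exact ⟨φ, hφ, I, hpos hsv, hI⟩
  · intro n m hn X Y _ _ _ _ _ _ _ _ _ w hw h hh hneg F hF hx hnef φ hφ
    exact GenericImmersionBig.result n m hn X Y w hw h hh hneg F hF hx hnef φ hφ
  · intro n m hm X D _ _ _ _ _ _ _ p hp ρ hρ hgen
    exact L2Covering.result hm p hp ρ hρ hgen

end Vale.Agent.Results.P272.AmpleCriteria
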