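import Vale.Agent.P272.K.AMP.BIG.H977.All
import Vale.Agent.P272.K.AMP.Main.FinalNF

/-!
# P272: Hermitian metrics of nonpositive holomorphic sectional curvature, summary

`X` is a compact connected complex manifold of dimension `n ≥ 1` with a Kähler metric `w`, and `h` is
a Hermitian metric on `X` (no Kähler, pluriclosed or other condition) whose Chern connection has
nonpositive holomorphic sectional curvature. Then

1. `K_X` is nef;
2. `K_X` is positive (ample) if and only if `c₁(K_X)^n > 0` (`K_X` is big);
3. `K_X` is positive if the curvature is negative in all nonzero directions at one point;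
4. `K_X` is positive if `h` has no flat line (an entire curve of constant speed, geodesic for the
   Chern connection, along which the curvature vanishes), so if `K_X` is not ample, then `h` has a
   flat line, in particular a nonconstant entire curve;
5. `K_X` is positive if `X` is Brody hyperbolic.
-/

open scoped Manifold ContDiff ComplexOrder

namespace Vale.Agent.Results.P272.HermitianNonposHSC

open Vale.Agent.P272.K

section
variable (n : ℕ) (X : Type) [TopologicalSpace X] [ChartedSpace (Cm n) X]

/-- `K_X` is positive: it has a smooth Hermitian metric with positive definite curvature form. -/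
def PositiveCanonical : Prop :=
  ∃ φ : Chart n X → Cm n → ℝ, IsCanonicalMetric φ ∧ ∀ e x, At e x → (cHess (φ e) (e x)).PosDef

/-- `c₁(K_X)^n > 0`: the integral over `X` of the top power of the curvature form of a smooth
Hermitian metric on `K_X` is positive. -/
def TopPositive : Prop :=
  ∃ φ : Chart n X → Cm n → ℝ, IsCanonicalMetric φ ∧
    ∃ I : ℝ, 0 < I ∧ IsIntegral (fun e z => (cHess (φ e) z).det.re) I

end

theorem result (n : ℕ) (hn : 1 ≤ n) (X : Type) [TopologicalSpace X] [T2Space X] [CompactSpace X]
    [ConnectedSpace X] [ChartedSpace (Cm n) X] [IsManifold 𝓘(ℂ, Cm n) ω X]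
    (w h : Chart n X → Cm n → Matrix (Fin n) (Fin n) ℂ) (hw : IsKahler w) (hh : IsHermitian h)
    (hneg : NonposHSC h) :
    NefCanonical w 0 ∧ (PositiveCanonical n X ↔ TopPositive n X) ∧
    (QuasiNegHSC h → PositiveCanonical n X) ∧
    ((∀ f : ℂ → X, ¬ IsFlatLine h f) → PositiveCanonical n X) ∧
    (BrodyHyperbolic n X → PositiveCanonical n X) := by
  refine ⟨AMP.NEF.nef_of_nonpos hn hw hh hneg, ⟨?_, ?_⟩, ?_, ?_, ?_⟩
  · rintro ⟨φ, hφ, hpos⟩
    obtain ⟨I, hI, hII⟩ := AMP.BIG.PP_pos_of_ample hw hφ hpos
    exact ⟨φ, hφ, I, hI, hII⟩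
  · rintro ⟨φ, hφ, I, hI, hII⟩
    exact AMP.BIG.ampleBig_final n hn X w h hw hh hneg (AMP.BIG.PP_pos_of_isIntegral hw hφ hI hII)
  · intro hq
    exact AMP.BIG.ampleBig_final n hn X w h hw hh hneg (AMP.BIG.PP_pos_of_quasiNeg hn hw hh hq)
  · intro hno
    exact AMP.NF.ample_noFlat n hn X w h hw hh hneg hno
  · intro hyp
    exact AMP.NF.ample_final n hn X hyp w h hw hh hneg

end Vale.Agent.Results.P272.HermitianNonposHSC
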