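import Vale.Agent.P272.K.AMP.BIG.H977.All

/-!
# P272: ampleness of the canonical bundle for Hermitian metrics of quasi-negative holomorphic
sectional curvature

`X` is a compact connected complex manifold of dimension `n ≥ 1` with a Kähler metric `w`, and `h` is
a Hermitian metric on `X` (no Kähler, pluriclosed or other condition) whose Chern connection has
quasi-negative holomorphic sectional curvature: it is nonpositive, and negative in all nonzero
directions at one point. Then `K_X` has a smooth Hermitian metric of positive curvature, so `K_X` is
ample. Nothing is assumed about `K_X` (no nefness, no bigness) or `X` (no projectivity, no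
hyperbolicity).

Ideas. (1) `K_X` is nef, (2) `c₁(K_X)^n > 0`. (3) Ampleness: let `t > 0` be small. There is a Kähler
form `χ` in the class `K_X + t[w]` such that `χ ≥ δ w` outside a set of very small volume, with `δ`
independent of `t` (from the equation of Aubin-Yau for a Monge-Ampère equation with right side
`exp(-N m_χ)`, `m_χ = 1 / tr_χ w`, and a variational argument). Let `g` be the Kähler metric with
`Ric(g) = -g + t w + b χ`, `b` small. The term `b χ` replaces the negativity of the curvature of `h`
outside the small set, where an a priori bound depending on `t` is used. The uniform bound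
`tr_g w ≤ C` follows as for negative curvature (double divergence inequality for `h` with a weight
made from a function with a regularised pole at the maximum of `tr_g w`). Then let `t → 0`.
-/

open scoped Manifold ContDiff ComplexOrder

namespace Vale.Agent.Results.P272.HermitianQuasiNegAmple

open Vale.Agent.P272.K

theorem result (n : ℕ) (hn : 1 ≤ n) (X : Type) [TopologicalSpace X] [T2Space X] [CompactSpace X]
    [ConnectedSpace X] [ChartedSpace (Cm n) X] [IsManifold 𝓘(ℂ, Cm n) ω X]
    (w h : Chart n X → Cm n → Matrix (Fin n) (Fin n) ℂ) (hw : IsKahler w) (hh : IsHermitian h)
    (hq : QuasiNegHSC h) :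
    ∃ φ : Chart n X → Cm n → ℝ, IsCanonicalMetric φ ∧
      ∀ e x, At e x → (cHess (φ e) (e x)).PosDef :=
  AMP.BIG.ampleBig_final n hn X w h hw hh hq.1 (AMP.BIG.PP_pos_of_quasiNeg hn hw hh hq)

end Vale.Agent.Results.P272.HermitianQuasiNegAmple
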