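import Vale.Agent.P272.K.AMP.Main.FinalNF

/-!
# P272: ampleness of the canonical bundle of a hyperbolic Kähler manifold with a Hermitian metric of
nonpositive holomorphic sectional curvature

`X` is a compact connected complex manifold of dimension `n ≥ 1` with a Kähler metric `w`, `X` is
Brody hyperbolic, and `h` is a Hermitian metric on `X` (no Kähler, pluriclosed or other condition)
whose Chern connection has nonpositive holomorphic sectional curvature. Then `K_X` has a smooth
Hermitian metric of positive curvature, so `K_X` is ample. Nothing else is assumed about `K_X` or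
`X` (no nefness, no projectivity).

Ideas: let `t₀` be the infimum of the `t` for which `K_X + t[w]` is a Kähler class and suppose
`t₀ ≥ 0`. For `t > t₀` there is a Kähler metric `g` in this class with `Ric(g) = -g + t w`
(Aubin-Yau, proved here). A function `G` with a regularised pole (`G - Δ G = 1 + f₀`) at the maximum
point of `tr_g w` gives the weight `ρ = G^{(n-2)/(n-1)}`. The geodesic spray of `g` and the averages
over the tangent spheres of `g` give `∫ ρ (tr_g h)² ≤ C (∫ ρ + ∫ ρ⁻¹|∂ρ|² tr_g h + ...)`, provided
that `h` has no flat lines (entire curves with `R^h(f',f')f' = 0` and `∇f' = 0`); hyperbolicity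
excludes them. This replaces the negativity of the curvature in the proof for negative curvature.
The cases `n ≤ 2` follow by applying this to `X × X × X`.
-/

open scoped Manifold ContDiff ComplexOrder

namespace Vale.Agent.Results.P272.HyperbolicAmple

open Vale.Agent.P272.K

theorem result (n : ℕ) (hn : 1 ≤ n) (X : Type) [TopologicalSpace X] [T2Space X] [CompactSpace X]
    [ConnectedSpace X] [ChartedSpace (Cm n) X] [IsManifold 𝓘(ℂ, Cm n) ω X]
    (hyp : BrodyHyperbolic n X)
    (w h : Chart n X → Cm n → Matrix (Fin n) (Fin n) ℂ) (hw : IsKahler w) (hh : IsHermitian h)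
    (hneg : NonposHSC h) :
    ∃ φ : Chart n X → Cm n → ℝ, IsCanonicalMetric φ ∧
      ∀ e x, At e x → (cHess (φ e) (e x)).PosDef :=
  AMP.NF.ample_final n hn X hyp w h hw hh hneg

end Vale.Agent.Results.P272.HyperbolicAmple
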